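import Vale.Agent.P100.Biharm.Main
import Vale.Agent.P100.Doubling.Final
import Vale.Agent.P100.Planar.Basic
import Vale.Agent.P100.Planes.Main
import Vale.Agent.P100.Sector.Singular

/-!
# P100: the Hénon–Lane–Emden conjecture for `n ≤ 3`, for weights `≤ 0`, and below the unweighted
hyperbola

Subcritical parameters admit no positive entire solution when `n ≤ 3`, when a weight is at most
`-2`, when both weights are at most `0` (so for the whole Lane–Emden system), when
`1/(p+1) + 1/(q+1) > (n-2)/n`, when `(n-1)(pq-1) < 2 max (p(q+1), q(p+1))`, when both scaling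
exponents exceed `(n-2)/2` (so for the whole scalar Hénon equation), when one exceeds `n-2`, or when `p = 1` or
`q = 1` (the biharmonic Hénon equation).
-/

open scoped Laplacian

namespace Vale.Agent.Results.P100.HenonLaneEmden

theorem result
    (n : ℕ) (hn : 2 ≤ n) (A B p q : ℝ) (hp : 0 < p) (hq : 0 < q)
    (hsub : (n : ℝ) - 2 < ((n : ℝ) + A) / (p + 1) + ((n : ℝ) + B) / (q + 1))
    (hcase : n ≤ 3 ∨ A ≤ -2 ∨ B ≤ -2 ∨ (A ≤ 0 ∧ B ≤ 0) ∨
      ((n : ℝ) - 2) / n < 1 / (p + 1) + 1 / (q + 1) ∨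
      ((n : ℝ) - 1) * (p * q - 1) < 2 * max (p * (q + 1)) (q * (p + 1)) ∨
      ((n : ℝ) - 2) * (p * q - 1) < 2 * min (2 + A + (2 + B) * p) (2 + B + (2 + A) * q) ∨
      ((n : ℝ) - 2) * (p * q - 1) < max (2 + A + (2 + B) * p) (2 + B + (2 + A) * q) ∨
      p = 1 ∨ q = 1) :
    ¬ ∃ u v : EuclideanSpace ℝ (Fin n) → ℝ, Continuous u ∧ Continuous v ∧
      (∀ x, 0 < u x ∧ 0 < v x) ∧
      ∀ x ≠ 0, ContDiffAt ℝ 2 u x ∧ ContDiffAt ℝ 2 v x ∧
        -Δ u x = ‖x‖ ^ A * v x ^ p ∧ -Δ v x = ‖x‖ ^ B * u x ^ q := by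
  obtain rfl | h3 : n = 2 ∨ 3 ≤ n := by omega
  · rintro ⟨u, v, -, -, hpos, h⟩
    exact Vale.Agent.P100.Planar.no_solution_euclidean p q A B
      ⟨u, v, fun x hx => ⟨(h x hx).1, (h x hx).2.1, (hpos x).1, (hpos x).2, (h x hx).2.2⟩⟩
  rcases le_or_gt A (-2) with hA | hA
  · exact Vale.Agent.P100.Sector.no_solution_le_neg_two h3 (Or.inl hA) hp hq
  rcases le_or_gt B (-2) with hB | hB
  · exact Vale.Agent.P100.Sector.no_solution_le_neg_two h3 (Or.inr hB) hp hq
  have sec := Vale.Agent.P100.Sector.no_solution_sector_all h3 hA hB hp hq hsub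
  rcases hcase with h | h | h | ⟨hA0, hB0⟩ | h | h | h | h | h
  · obtain rfl : n = 3 := by omega
    refine sec ?_
    push_cast
    linarith [le_max_left (p * (q + 1)) (q * (p + 1)), le_max_right (p * (q + 1)) (q * (p + 1))]
  · exact absurd h (not_le.2 hA)
  · exact absurd h (not_le.2 hB)
  · refine Vale.Agent.P100.Doubling.no_solution_of_subcritical h3 hA hB hp hq hsub ?_
    have hn0 : (0 : ℝ) < n := by exact_mod_cast (by omega : 0 < n)
    rw [div_lt_iff₀ hn0, add_mul, div_mul_eq_mul_div, div_mul_eq_mul_div, one_mul]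
    refine hsub.trans_le (add_le_add ?_ ?_) <;>
      exact div_le_div_of_nonneg_right (by linarith) (by linarith)
  · exact Vale.Agent.P100.Doubling.no_solution_of_subcritical h3 hA hB hp hq hsub h
  · exact sec h
  · exact Vale.Agent.P100.Planes.no_solution_planes h3 hA hB hp hq (Or.inl h)
  · exact Vale.Agent.P100.Planes.no_solution_planes h3 hA hB hp hq (Or.inr h)
  · exact Vale.Agent.P100.Biharm.no_solution_one h3 hA hB hp hq hsub h

end Vale.Agent.Results.P100.HenonLaneEmden
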